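import Vale.Agent.P353.Z.U.StmtM

/-! # P353, all `N`: from the setup back to the model as posed (statements)

A prover delivers `theorem <name> … : XStmt …` in `Vale/Agent/P353/AN/Fin/<File>.lean`. -/

open MeasureTheory Filter Topology
open scoped ContDiff

namespace Vale.Agent.P353.Z.Fin1

variable {N d : ℕ} {F : Type*} [NormedAddCommGroup F] [InnerProductSpace ℂ F]

/-- the space of zero modes is one dimensional -/
def One (S : Setup d F) : Prop := ∃ Ψ₀ : Lp F 2 (volume : Measure (Cfg d)), S.IsZM Ψ₀ ∧ Ψ₀ ≠ 0 ∧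
  ∀ Ψ : Lp F 2 (volume : Measure (Cfg d)), S.IsZM Ψ → ∃ c : ℂ, Ψ = c • Ψ₀

/-- **BR1** converse Gauss law. PROOF. Every `U ∈ SU(N)` is `exp(iH)` times a phase, `H` Hermitian traceless (`MAd.lean: mad_log, mad_complete`); a phase in `SU(N)` acts
trivially on `x`, and `S(phase)` commutes with all `θ`, so it is a scalar; better: `U = V diag(e^{ia_j}) V*` with `∑a_j = 0` after shifting one `a_j` by a multiple of `2π`, so
`U = exp(iH)` exactly with `H` traceless. `MGaussC.lean / MGauss.lean` prove `M.S (exp(itH)) = mgE (mgz M H) t` (the step `hS` in `mg_gauss`), and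
`d/dt [S(g_t)⁻¹u(g_t·x)] = 0` because `∑h_C G_Cu = 0` (same computation as in `mg_gauss`, at every `t`). -/
def CoreStmt (M : BFSS.Model N d F) : Prop := FiniteDimensional ℂ F → 2 ≤ N → ∀ S : Setup d F, U.Rep M S → ∀ u : Cfg d → F,
  Setup.Tst u → (∀ C x, S.G C u x = 0) → M.IsCore u

/-- **BR2** zero modes are zero-energy states. PROOF. `Apx` sequence, BR1; `mb_Q`, `mb_form_eq`, `mb_form_sub_re` of `MBridge.lean`; Cauchy–Schwarz. -/
def BackStmt (M : BFSS.Model N d F) : Prop := ∀ S : Setup d F, U.Rep M S → ∀ Ψ : Lp F 2 (volume : Measure (Cfg d)),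
  S.IsZM Ψ → M.IsZeroEnergyState (fun x => Ψ x)

def BackOfStmt (M : BFSS.Model N d F) : Prop := CoreStmt M → FiniteDimensional ℂ F → 2 ≤ N → BackStmt M

/-- **BR3** the theorem for the model as posed. PROOF. `setS M`, `finiteDimensional_of_model M`, BR2, `bridge_of_gauss M (gaussLaw M)`. -/
def TopOfStmt (M : BFSS.Model N d F) : Prop := 2 ≤ N → (∀ S : Setup d F, U.Rep M S → One S) → BackStmt M →
  ∃ Φ : BFSS.Conf d → F, M.IsZeroEnergyState Φ ∧ ¬ (∀ᵐ x ∂BFSS.leb d, Φ x = 0) ∧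
    ∀ Ψ, M.IsZeroEnergyState Ψ → ∃ c : ℂ, ∀ᵐ x ∂BFSS.leb d, Ψ x = c • Φ x

end Vale.Agent.P353.Z.Fin1
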