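import Vale.Agent.P353.AN.H.All
import Vale.Agent.P353.AN.G.GAll
import Vale.Agent.P353.AN.Fin.Stmt
import Vale.Agent.P353.AN.X2.Zero

/-! # P353, all `N`: induction on `N` (helper973)

`SysStmt N` = existence of a weak profile system for the models of size `N`, given uniqueness for all smaller sizes. -/

open MeasureTheory Filter Topology
open scoped ContDiff

namespace Vale.Agent.P353.Z.Fin1

/-- uniqueness of the zero mode for all models of size `n` -/
def UniqN (n : ℕ) : Prop := ∀ (d : ℕ) (F : Type) [NormedAddCommGroup F] [InnerProductSpace ℂ F]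
  (M : BFSS.Model n d F) (S : Setup d F), U.Rep M S → One S

/-- the weak profile system, given the induction hypothesis -/
def SysStmt (N : ℕ) : Prop := (∀ n, 1 ≤ n → n < N → UniqN n) → ∀ (d : ℕ) (F : Type) [NormedAddCommGroup F]
  [InnerProductSpace ℂ F] (_ : FiniteDimensional ℂ F) (M : BFSS.Model N d F) (S : Setup d F), U.Rep M S →
  ∃ (ι : Type) (_ : Fintype ι) (P : PW S ι), Fintype.card ι + 1 = Fintype.card (Nat.Partition N) ∧
    P.LimEq ∧ P.NoLoss ∧ ∃ J, P.Rep J

lemma irr_of {N d : ℕ} {F : Type*} [NormedAddCommGroup F] [InnerProductSpace ℂ F] {M : BFSS.Model N d F}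
    {S : Setup d F} (hS : U.Rep M S) : S.Irr := by
  intro W hW
  refine M.θ_irreducible W fun α A v hv => ?_
  have := hW α A v hv
  rwa [hS.hth] at this

theorem uniqN_one : UniqN 1 := by
  intro d F _ _ M S hS
  have hF : FiniteDimensional ℂ F := U.finiteDimensional_of_model M
  have hd : d = 0 := M.dim_eq
  subst hd
  exact AX2.zero_stmt S.κ S.f F hF S rfl rfl (irr_of hS) M.nontrivial

/-- one step of the induction -/
theorem uniq_step {N : ℕ} (hN : 2 ≤ N) (hsys : SysStmt N) (hih : ∀ n, 1 ≤ n → n < N → UniqN n) : UniqN N := by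
  classical
  intro d F _ _ M S hS
  have hF : FiniteDimensional ℂ F := U.finiteDimensional_of_model M
  obtain ⟨ι, _, P, hcard, hE, hNL, hRep⟩ := hsys hih d F hF M S hS
  have hcnt : S.OrbCount (Fintype.card (Nat.Partition N)) :=
    U.count_of M (U.adS M fun S a t => U.exp_mem S a t) (fun S => U.sq_stmt S) S hS
  have hd : 0 < d := by
    have h1 := M.dim_eq
    have h2 : 2 ^ 2 ≤ N ^ 2 := Nat.pow_le_pow_left hN 2
    omega
  have hL := AN.G.gMain M hd S hS
  rw [← hcard] at hcnt hL
  exact AH.topWAll S (irr_of hS) M.nontrivial ι P hE hNL hRep hcnt hL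

theorem uniq_all (hsys : ∀ N, 2 ≤ N → SysStmt N) : ∀ N, 1 ≤ N → UniqN N := by
  intro N
  induction N using Nat.strong_induction_on with
  | _ N ih =>
    intro hN
    rcases Nat.eq_or_lt_of_le hN with h | h
    · rw [← h]
      exact uniqN_one
    · exact uniq_step h (hsys N h) fun n hn hnN => ih n hnN hn

/-- the theorem for the model as posed -/
theorem thresh (hsys : ∀ N, 2 ≤ N → SysStmt N)
    (hTop : ∀ (N d : ℕ) (F : Type) [NormedAddCommGroup F] [InnerProductSpace ℂ F] (M : BFSS.Model N d F), TopOfStmt M)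
    (hBack : ∀ (N d : ℕ) (F : Type) [NormedAddCommGroup F] [InnerProductSpace ℂ F] (M : BFSS.Model N d F), 2 ≤ N → BackStmt M)
    {N d : ℕ} {F : Type} [NormedAddCommGroup F] [InnerProductSpace ℂ F] (hN : 2 ≤ N) (M : BFSS.Model N d F) :
    ∃ Φ : BFSS.Conf d → F, M.IsZeroEnergyState Φ ∧ ¬ (∀ᵐ x ∂BFSS.leb d, Φ x = 0) ∧
      ∀ Ψ, M.IsZeroEnergyState Ψ → ∃ c : ℂ, ∀ᵐ x ∂BFSS.leb d, Ψ x = c • Φ x :=
  hTop N d F M hN (fun S hS => uniq_all hsys N (by omega) d F M S hS) (hBack N d F M hN)

end Vale.Agent.P353.Z.Fin1
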