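import Vale.Agent.P353.AN.GL.Eqv
import Vale.Agent.P353.AN.G.ExpH
import Vale.Agent.P353.AN.G.Act
import Vale.Agent.P353.AN.G.Cen

/-! # P353, all `N`: functions killed by the gauge generators are equivariant under `SU(N)` -/

open MeasureTheory Filter Topology
open scoped ContDiff

namespace Vale.Agent.P353.AN.G

open Vale.Agent.P353.Z Vale.Agent.P353.Z.U Vale.Agent.P353.Z.AN

variable {N d : ℕ} {F : Type*} [NormedAddCommGroup F] [InnerProductSpace ℂ F]

/-- `exp (i U diag(y) U*) = U exp (i diag(y)) U*` -/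
lemma core_exp (U : Matrix.specialUnitaryGroup (Fin N) ℂ) (y : Fin N → ℝ) :
    NormedSpace.exp (Complex.I • mgc U.val (Matrix.diagonal fun j => ((y j : ℝ) : ℂ))) =
      mgc U.val (Matrix.diagonal fun j => Complex.exp (((y j : ℝ) : ℂ) * Complex.I)) := by
  have hinv : (U.val)⁻¹ = U.val.conjTranspose :=
    Matrix.inv_eq_right_inv (mg_unit U).2
  have hU : IsUnit U.val := by
    rw [Matrix.isUnit_iff_isUnit_det]
    rw [(Matrix.mem_specialUnitaryGroup_iff.1 U.2).2]
    exact isUnit_one
  have h1 : Complex.I • mgc U.val (Matrix.diagonal fun j => ((y j : ℝ) : ℂ)) =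
      U.val * (Complex.I • Matrix.diagonal fun j => ((y j : ℝ) : ℂ)) * (U.val)⁻¹ := by
    rw [hinv, mgc, Matrix.mul_smul, Matrix.smul_mul]
  rw [h1, Matrix.exp_conj _ _ hU, hinv, mgc]
  congr 2
  rw [← Matrix.diagonal_smul, Matrix.exp_diagonal]
  congr 1
  funext j
  rw [Pi.coe_exp, ← Complex.exp_eq_exp_ℂ]
  show Complex.exp (Complex.I * _) = _
  rw [mul_comm]

/-- every element of `SU(N)` is conjugate to `exp (i x)` with `x` real, diagonal and traceless -/
theorem core_tor (hN : 0 < N) (V : Matrix.specialUnitaryGroup (Fin N) ℂ) :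
    ∃ (U : Matrix.specialUnitaryGroup (Fin N) ℂ) (x : mgH N), V = U * mgtor x * U⁻¹ := by
  classical
  have hV : V.val ∈ unitary (Matrix (Fin N) (Fin N) ℂ) :=
    (Matrix.mem_specialUnitaryGroup_iff.1 V.2).1
  obtain ⟨K, hK, hKV⟩ := mad_log V.val hV
  obtain ⟨U, hU⟩ := mg_phase hN (hK.eigenvectorUnitary : Matrix (Fin N) (Fin N) ℂ)
    hK.eigenvectorUnitary.2
  have h1 : mgc U.val (Matrix.diagonal fun j => ((hK.eigenvalues j : ℝ) : ℂ)) = K := by
    rw [hU]
    have h2 := hK.spectral_theorem
    rw [Unitary.conjStarAlgAut_apply] at h2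
    exact h2.symm
  have h2 : V.val = mgc U.val (Matrix.diagonal fun j =>
      Complex.exp (((hK.eigenvalues j : ℝ) : ℂ) * Complex.I)) := by
    rw [← core_exp, h1, hKV]
  have h3 : ∏ j, Complex.exp (((hK.eigenvalues j : ℝ) : ℂ) * Complex.I) = 1 := by
    have h4 := (Matrix.mem_specialUnitaryGroup_iff.1 V.2).2
    have h5 := (Matrix.mem_specialUnitaryGroup_iff.1 U.2).2
    rw [h2, mgc, Matrix.det_mul, Matrix.det_mul, Matrix.det_conjTranspose, h5, star_one, one_mul,
      mul_one, Matrix.det_diagonal] at h4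
    exact h4
  rw [← Complex.exp_sum, ← Finset.sum_mul, ← Complex.ofReal_sum] at h3
  obtain ⟨k, hk⟩ := Complex.exp_eq_one_iff.1 h3
  have h5 : ∑ j, hK.eigenvalues j = k * (2 * Real.pi) := by
    have h6 : ((∑ j, hK.eigenvalues j : ℝ) : ℂ) * Complex.I =
        ((k : ℂ) * (2 * Real.pi)) * Complex.I := by
      linear_combination hk
    have h7 := mul_right_cancel₀ Complex.I_ne_zero h6
    exact_mod_cast h7
  have hNe : NeZero N := ⟨hN.ne'⟩
  set x : Fin N → ℝ := fun j => if j = 0 then hK.eigenvalues j - k * (2 * Real.pi) else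
    hK.eigenvalues j with hx
  have hx0 : ∑ j, x j = 0 := by
    have h8 : ∀ j : Fin N, x j = hK.eigenvalues j - (if j = 0 then k * (2 * Real.pi) else 0) := by
      intro j
      simp only [hx]
      split_ifs <;> ring
    simp only [h8]
    rw [Finset.sum_sub_distrib, h5, Finset.sum_ite_eq' Finset.univ (0 : Fin N),
      if_pos (Finset.mem_univ _), sub_self]
  have hxe : ∀ j, Complex.exp (((x j : ℝ) : ℂ) * Complex.I) =
      Complex.exp (((hK.eigenvalues j : ℝ) : ℂ) * Complex.I) := by
    intro j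
    simp only [hx]
    split_ifs
    · have h9 : (((hK.eigenvalues j - k * (2 * Real.pi) : ℝ)) : ℂ) * Complex.I =
          (hK.eigenvalues j : ℂ) * Complex.I - k * (2 * Real.pi * Complex.I) := by
        push_cast
        ring
      rw [h9, Complex.exp_periodic.sub_int_mul_eq]
    · rfl
  refine ⟨U, ⟨x, hx0⟩, ?_⟩
  apply Subtype.ext
  rw [h2]
  show mgc U.val _ = U.val * mgtorM ⟨x, hx0⟩ * U.val.conjTranspose
  rw [mgc, mgtorM]
  simp only [hxe]

/-- the adjoint matrix of `exp (i ∑ h_A T_A)` -/
theorem core_ad (M : BFSS.Model N d F) (S : Setup d F) (hS : Rep M S) (V : BFSS.SU N)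
    (h : Fin d → ℝ) (hV : V.val = NormedSpace.exp (Complex.I • ∑ A, ((h A : ℝ) : ℂ) • M.T A)) :
    actO M V = NormedSpace.exp (S.adm (-h)) := by
  set K : Matrix (Fin N) (Fin N) ℂ := ∑ A, ((h A : ℝ) : ℂ) • M.T A with hKe
  have hK : K.conjTranspose = K := by
    rw [hKe, Matrix.conjTranspose_sum]
    refine Finset.sum_congr rfl fun A _ => ?_
    rw [Matrix.conjTranspose_smul, M.T_hermitian, RCLike.star_def, Complex.conj_ofReal]
  have hD : ∀ C, (Complex.I • K) * M.T C - M.T C * (Complex.I • K) =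
      ∑ B, (((S.adm (-h)) B C : ℝ) : ℂ) • M.T B := by
    intro C
    have e1 : (Complex.I • K) * M.T C - M.T C * (Complex.I • K) =
        Complex.I • ∑ A, ((h A : ℝ) : ℂ) • (M.T A * M.T C - M.T C * M.T A) := by
      conv_lhs => rw [hKe]
      rw [Matrix.smul_mul, Matrix.mul_smul, ← smul_sub, Matrix.sum_mul,
        Matrix.mul_sum, ← Finset.sum_sub_distrib]
      congr 1
      refine Finset.sum_congr rfl fun A _ => ?_
      rw [Matrix.smul_mul, Matrix.mul_smul, smul_sub]
    rw [e1, Finset.smul_sum]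
    have e2 : ∀ A, Complex.I • ((h A : ℝ) : ℂ) • (M.T A * M.T C - M.T C * M.T A) =
        ∑ B, ((-(h A * M.f A C B) : ℝ) : ℂ) • M.T B := by
      intro A
      rw [M.T_comm, Finset.smul_sum, Finset.smul_sum]
      refine Finset.sum_congr rfl fun B _ => ?_
      rw [smul_smul, smul_smul]
      congr 1
      push_cast
      linear_combination ((h A : ℂ) * (M.f A C B : ℂ)) * Complex.I_mul_I
    rw [Finset.sum_congr rfl fun A _ => e2 A, Finset.sum_comm]
    refine Finset.sum_congr rfl fun B _ => ?_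
    rw [← Finset.sum_smul, ← Complex.ofReal_sum]
    congr 2
    simp only [Setup.adm, Matrix.of_apply, Pi.neg_apply]
    refine Finset.sum_congr rfl fun A _ => ?_
    rw [S.f_cyc B A C, hS.hf]
    ring
  have hconj := mad_conj M.T (Complex.I • K) (S.adm (-h)) hD
  have hUstar : V.val.conjTranspose = NormedSpace.exp (-(Complex.I • K)) := by
    rw [hV, ← Matrix.exp_conjTranspose, Matrix.conjTranspose_smul, hK]
    simp
  ext B A
  rw [actO, Matrix.of_apply]
  unfold BFSS.adCoeff
  rw [hUstar, hV, hconj A, Matrix.mul_sum, Matrix.trace_sum, Finset.sum_eq_single B]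
  · rw [Matrix.mul_smul, Matrix.trace_smul, M.T_orthonormal, if_pos rfl]
    simp
  · intro C _ hC
    rw [Matrix.mul_smul, Matrix.trace_smul, M.T_orthonormal, if_neg (Ne.symm hC), smul_zero]
  · simp

/-- **equivariance** under the whole group -/
theorem core_eqv [FiniteDimensional ℂ F] (M : BFSS.Model N d F) (S : Setup d F) (hrep : Rep M S)
    (u : Cfg d → F) (hu : ContDiff ℝ ∞ u) (hG : ∀ C x, S.G C u x = 0) (V : BFSS.SU N)
    (x : Cfg d) : u (M.act V x) = M.S V (u x) := by
  have hcomp : CompleteSpace F := FiniteDimensional.complete ℂ F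
  rcases Nat.eq_zero_or_pos d with hd | hd
  · have hV : V = 1 := by
      have hN : N ≤ 1 := by
        have h1 := M.dim_eq
        rw [hd] at h1
        by_contra hcon
        push Not at hcon
        have h2 : 2 ^ 2 ≤ N ^ 2 := Nat.pow_le_pow_left hcon 2
        omega
      apply Subtype.ext
      have hdet := (Matrix.mem_specialUnitaryGroup_iff.1 V.2).2
      rcases Nat.eq_zero_or_pos N with h0 | h0
      · subst h0
        ext i
        exact i.elim0
      · have h1 : N = 1 := by omega
        subst h1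
        rw [Matrix.det_unique] at hdet
        ext i j
        have hi : i = default := Subsingleton.elim _ _
        have hj : j = default := Subsingleton.elim _ _
        rw [hi, hj]
        simpa using hdet
    have h1 : M.act V x = x := by
      rw [hV, act_eq_ro, actO_one]
      exact U.gx983_ro_one x
    have h2 : M.S V = 1 := by
      have h3 : M.toOld.S (1 : Matrix.specialUnitaryGroup (Fin N) ℂ) = 1 := map_one M.toOld.S
      rw [hV]
      exact h3
    rw [h1, h2]
    rfl
  obtain ⟨hN, -⟩ := mg_dim M.toOld hd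
  obtain ⟨U, y, hUy⟩ := core_tor hN V
  have hherm : (mgc U.val (mgd y)).conjTranspose = mgc U.val (mgd y) := by
    rw [mgc, Matrix.conjTranspose_mul, Matrix.conjTranspose_mul, Matrix.conjTranspose_conjTranspose,
      mgd, Matrix.diagonal_conjTranspose, mul_assoc]
    congr 3
    funext j
    rw [Pi.star_apply, RCLike.star_def, Complex.conj_ofReal]
  have htr : (mgc U.val (mgd y)).trace = 0 := by
    rw [mgc_trace, mgd, Matrix.trace_diagonal, ← Complex.ofReal_sum, mgH_sum, Complex.ofReal_zero]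
  obtain ⟨h, hh⟩ := cen_coef M hN _ hherm htr
  have hVe : V.val = NormedSpace.exp (Complex.I • ∑ A, ((h A : ℝ) : ℂ) • M.T A) := by
    rw [← hh, exh_tor, hUy]
    rfl
  have hact : M.act V x = ro (NormedSpace.exp (S.adm (-h))) x := by
    rw [act_eq_ro, core_ad M S hrep V h hVe]
  have hE := (eqv_stmt S inferInstance).2.2.2.2 u hu hG (-h) x
  have hSV : M.S V = mgE (mgz M.toOld (mgc U.val (mgd y))) 1 := by
    have h1 := mgS_conj M.toOld hd U y 1
    rw [one_smul, ← hUy] at h1
    exact h1
  rw [hact, hE, hSV]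
  congr 1
  rw [spn, mgE, Complex.ofReal_one, one_smul, hh, map_sum]
  congr 1
  rw [Finset.smul_sum]
  refine Finset.sum_congr rfl fun C _ => ?_
  rw [map_smul, exh_cS M S hrep C, smul_smul, smul_smul]
  show _ = (h C : ℂ) • mgz M.toOld (M.toOld.T C)
  congr 1
  simp only [Pi.neg_apply, Complex.ofReal_neg]
  linear_combination (-(h C : ℂ)) * Complex.I_sq

end Vale.Agent.P353.AN.G
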