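import Vale.Agent.P353.AN.Fin.AllOf
import Vale.Agent.P353.AN.SY.SysAll

/-! # P353, all `N`: the threshold bound state theorem -/

open MeasureTheory Filter Topology
open scoped ContDiff

namespace Vale.Agent.P353.Z.AFinal

/-- `dim ker H_N = 1` for every `N ≥ 2` -/
theorem one {N d : ℕ} {F : Type*} [NormedAddCommGroup F] [InnerProductSpace ℂ F] (M : BFSS.Model N d F) (hN : 2 ≤ N) :
    ∃ Φ : BFSS.Conf d → F, M.IsZeroEnergyState Φ ∧ ¬ (∀ᵐ x ∂BFSS.leb d, Φ x = 0) ∧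
      ∀ Ψ, M.IsZeroEnergyState Ψ → ∃ c : ℂ, ∀ᵐ x ∂BFSS.leb d, Ψ x = c • Φ x :=
  one_of ASY.sysAll M hN

end Vale.Agent.P353.Z.AFinal
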