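import Vale.Agent.P353.AN.Fin.StmtU
import Vale.Agent.P353.Z.U.MBridge

/-! # P353, all `N`: change of the universe of the fermion space (UNIV) -/

open MeasureTheory Filter Topology
open scoped ContDiff

namespace Vale.Agent.P353.Z.Fin1

universe u v

section UVRel

variable {N d : ℕ} {F : Type u} [NormedAddCommGroup F] [InnerProductSpace ℂ F]
  {E : Type v} [NormedAddCommGroup E] [InnerProductSpace ℂ E]

/-- two models are intertwined by a unitary map -/
structure UVRel (M : BFSS.Model N d F) (M' : BFSS.Model N d E) (e : F ≃ₗᵢ[ℂ] E) : Prop where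
  hT : M'.T = M.T
  hf : M'.f = M.f
  hg : M'.γ = M.γ
  hth : ∀ α A v, M'.θ α A (e v) = e (M.θ α A v)
  hS : ∀ U v, M'.S U (e v) = e (M.S U v)

theorem UVRel.symm {M : BFSS.Model N d F} {M' : BFSS.Model N d E} {e : F ≃ₗᵢ[ℂ] E}
    (h : UVRel M M' e) : UVRel M' M e.symm where
  hT := h.hT.symm
  hf := h.hf.symm
  hg := h.hg.symm
  hth := fun α A v => by
    apply e.injective
    rw [← h.hth, e.apply_symm_apply, e.apply_symm_apply]
  hS := fun U v => by
    apply e.injective
    rw [← h.hS, e.apply_symm_apply, e.apply_symm_apply]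

/-- the unitary map as a real continuous linear equivalence -/
noncomputable def uvR (e : F ≃ₗᵢ[ℂ] E) : F ≃L[ℝ] E where
  toLinearEquiv := e.toLinearEquiv.restrictScalars ℝ
  continuous_toFun := e.continuous
  continuous_invFun := e.symm.continuous

theorem uv_pd (e : F ≃ₗᵢ[ℂ] E) (i : Fin 9) (A : Fin d) (w : BFSS.Conf d → F) (x : BFSS.Conf d) :
    BFSS.pd i A (fun y => e (w y)) x = e (BFSS.pd i A w x) := by
  unfold BFSS.pd lineDeriv
  have h := (uvR e).comp_fderiv (f := fun t : ℝ => w (x + t • EuclideanSpace.single (i, A) 1)) (x := (0 : ℝ))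
  have h2 := congrArg (fun L : ℝ →L[ℝ] E => L 1) h
  exact h2

theorem uv_Q {M : BFSS.Model N d F} {M' : BFSS.Model N d E} {e : F ≃ₗᵢ[ℂ] E}
    (h : UVRel M M' e) (α : Fin 16) (w : BFSS.Conf d → F) (x : BFSS.Conf d) :
    M'.Q α (fun y => e (w y)) x = e (M.Q α w x) := by
  unfold BFSS.Model.Q BFSS.Model.γ2
  rw [h.hf, h.hg]
  simp only [uv_pd, h.hth, map_add, map_smul, map_sum]

theorem uv_act {M : BFSS.Model N d F} {M' : BFSS.Model N d E} {e : F ≃ₗᵢ[ℂ] E}
    (h : UVRel M M' e) (U : BFSS.SU N) (x : BFSS.Conf d) : M'.act U x = M.act U x := by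
  unfold BFSS.Model.act
  rw [h.hT]

theorem uv_core {M : BFSS.Model N d F} {M' : BFSS.Model N d E} {e : F ≃ₗᵢ[ℂ] E}
    (h : UVRel M M' e) {w : BFSS.Conf d → F} (hw : M.IsCore w) : M'.IsCore (fun x => e (w x)) := by
  refine ⟨?_, ?_, ?_⟩
  · exact (uvR e).contDiff.comp hw.1
  · exact hw.2.1.comp_left (g := e) e.map_zero
  · intro U x
    change e (w (M'.act U x)) = M'.S U (e (w x))
    rw [uv_act h, hw.2.2, h.hS]

theorem uv_form {M : BFSS.Model N d F} {M' : BFSS.Model N d E} {e : F ≃ₗᵢ[ℂ] E}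
    (h : UVRel M M' e) (φ w : BFSS.Conf d → F) :
    M'.form (fun x => e (φ x)) (fun x => e (w x)) = M.form φ w := by
  unfold BFSS.Model.form
  simp only [uv_Q h, LinearIsometryEquiv.inner_map_map]

theorem uv_zes {M : BFSS.Model N d F} {M' : BFSS.Model N d E} {e : F ≃ₗᵢ[ℂ] E}
    (h : UVRel M M' e) {Ψ : BFSS.Conf d → F} (hΨ : M.IsZeroEnergyState Ψ) :
    M'.IsZeroEnergyState (fun x => e (Ψ x)) := by
  obtain ⟨hm, w, hw, h1, h2, h3⟩ := hΨ
  refine ⟨?_, fun n x => e (w n x), fun n => uv_core h (hw n), ?_, ?_, ?_⟩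
  · exact (e.toContinuousLinearEquiv : F →L[ℂ] E).comp_memLp' hm
  · have : ∀ n x, ‖e (w n x) - e (Ψ x)‖ = ‖w n x - Ψ x‖ := fun n x => by
      rw [← map_sub, e.norm_map]
    simpa only [this] using h1
  · have : ∀ p : ℕ × ℕ, M'.form (fun x => e (w p.1 x) - e (w p.2 x)) (fun x => e (w p.1 x) - e (w p.2 x)) =
        M.form (fun x => w p.1 x - w p.2 x) fun x => w p.1 x - w p.2 x := fun p => by
      rw [← uv_form h]
      simp only [map_sub]
    simpa only [this] using h2
  · intro φ hφ
    have hc : M.IsCore (fun x => e.symm (φ x)) := uv_core h.symm hφ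
    have h4 := h3 _ hc
    have : ∀ n, M'.form φ (fun x => e (w n x)) = M.form (fun x => e.symm (φ x)) (w n) := fun n => by
      rw [← uv_form h]
      simp only [LinearIsometryEquiv.apply_symm_apply]
    simpa only [this] using h4

/-- uniqueness is transported by a unitary intertwiner -/
theorem uv_uniq {M : BFSS.Model N d F} {M' : BFSS.Model N d E} {e : F ≃ₗᵢ[ℂ] E}
    (h : UVRel M M' e) (hU : Uniq M') : Uniq M := by
  obtain ⟨Φ, hZ, hne, hun⟩ := hU
  refine ⟨fun x => e.symm (Φ x), uv_zes h.symm hZ, ?_, ?_⟩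
  · intro h0
    refine hne ?_
    filter_upwards [h0] with x hx
    exact e.symm.injective (by rw [hx, map_zero])
  · intro Ψ hΨ
    obtain ⟨c, hc⟩ := hun _ (uv_zes h hΨ)
    refine ⟨c, ?_⟩
    filter_upwards [hc] with x hx
    rw [← map_smul, ← hx, e.symm_apply_apply]

/-- the transported model -/
noncomputable def uvMod (M : BFSS.Model N d F) (e : F ≃ₗᵢ[ℂ] E) : BFSS.Model N d E where
  dim_eq := M.dim_eq
  T := M.T
  T_hermitian := M.T_hermitian
  T_traceless := M.T_traceless
  T_orthonormal := M.T_orthonormal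
  f := M.f
  T_comm := M.T_comm
  γ := M.γ
  γ_symm := M.γ_symm
  γ_anticomm := M.γ_anticomm
  θ := fun α A => ((e.toContinuousLinearEquiv : F →L[ℂ] E).comp (M.θ α A)).comp
    (e.symm.toContinuousLinearEquiv : E →L[ℂ] F)
  θ_selfAdjoint := fun α A v w => by
    change inner ℂ (e (M.θ α A (e.symm v))) w = inner ℂ v (e (M.θ α A (e.symm w)))
    have h1 : inner ℂ (e (M.θ α A (e.symm v))) w = inner ℂ (M.θ α A (e.symm v)) (e.symm w) := by
      conv_lhs => rw [← e.apply_symm_apply w]
      rw [e.inner_map_map]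
    have h2 : inner ℂ v (e (M.θ α A (e.symm w))) = inner ℂ (e.symm v) (M.θ α A (e.symm w)) := by
      conv_lhs => rw [← e.apply_symm_apply v]
      rw [e.inner_map_map]
    rw [h1, h2, M.θ_selfAdjoint]
  θ_anticomm := fun α A β B v => by
    change e (M.θ α A (e.symm (e (M.θ β B (e.symm v))))) + e (M.θ β B (e.symm (e (M.θ α A (e.symm v))))) = _
    rw [e.symm_apply_apply, e.symm_apply_apply, ← map_add, M.θ_anticomm]
    split_ifs
    · rw [e.apply_symm_apply]
    · rw [map_zero]
  θ_irreducible := fun W hW => by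
    have h1 := M.θ_irreducible (W.comap (e.toLinearEquiv : F →ₗ[ℂ] E)) (fun α A v hv => by
      rw [Submodule.mem_comap] at hv ⊢
      have h2 := hW α A _ hv
      change e (M.θ α A (e.symm (e v))) ∈ W at h2
      rw [e.symm_apply_apply] at h2
      exact h2)
    rcases h1 with h1 | h1
    · left
      rw [Submodule.eq_bot_iff]
      intro x hx
      have h2 : e.symm x ∈ W.comap (e.toLinearEquiv : F →ₗ[ℂ] E) := by
        rw [Submodule.mem_comap]
        change e (e.symm x) ∈ W
        rwa [e.apply_symm_apply]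
      rw [h1, Submodule.mem_bot] at h2
      have h3 := congrArg e h2
      rwa [e.apply_symm_apply, map_zero] at h3
    · right
      rw [Submodule.eq_top_iff']
      intro x
      have h2 : e.symm x ∈ W.comap (e.toLinearEquiv : F →ₗ[ℂ] E) := by
        rw [h1]
        exact Submodule.mem_top
      rw [Submodule.mem_comap] at h2
      change e (e.symm x) ∈ W at h2
      rwa [e.apply_symm_apply] at h2
  nontrivial := by
    obtain ⟨v, hv⟩ := M.nontrivial
    exact ⟨e v, fun h => hv (by rw [← e.symm_apply_apply v, h, map_zero])⟩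
  S := fun U => ((e.toContinuousLinearEquiv : F →L[ℂ] E).comp (M.S U)).comp
    (e.symm.toContinuousLinearEquiv : E →L[ℂ] F)
  S_mul := fun U U' v => by
    change e (M.S (U * U') (e.symm v)) = e (M.S U (e.symm (e (M.S U' (e.symm v)))))
    rw [e.symm_apply_apply, M.S_mul]
  S_isometry := fun U v => by
    change ‖e (M.S U (e.symm v))‖ = ‖v‖
    rw [e.norm_map, M.S_isometry, e.symm.norm_map]
  S_continuous := fun v => e.continuous.comp (M.S_continuous (e.symm v))
  S_rotates := fun U α A v => by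
    change e (M.S U (e.symm (e (M.θ α A (e.symm v))))) =
      ∑ B, (BFSS.adCoeff M.T U B A : ℂ) • e (M.θ α B (e.symm (e (M.S U (e.symm v)))))
    rw [e.symm_apply_apply, M.S_rotates, map_sum]
    refine Finset.sum_congr rfl fun B _ => ?_
    rw [map_smul, e.symm_apply_apply]

theorem uvMod_rel (M : BFSS.Model N d F) (e : F ≃ₗᵢ[ℂ] E) : UVRel M (uvMod M e) e where
  hT := rfl
  hf := rfl
  hg := rfl
  hth := fun α A v => by
    change e (M.θ α A (e.symm (e v))) = e (M.θ α A v)
    rw [e.symm_apply_apply]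
  hS := fun U v => by
    change e (M.S U (e.symm (e v))) = e (M.S U v)
    rw [e.symm_apply_apply]

end UVRel

/-- **UNIV** -/
theorem univS : UnivStmt.{u} := by
  intro h0 N d F _ _ M hN
  have : FiniteDimensional ℂ F := U.finiteDimensional_of_model M
  exact uv_uniq (uvMod_rel M (stdOrthonormalBasis ℂ F).repr) (h0 N d _ _ hN)

end Vale.Agent.P353.Z.Fin1
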