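import Vale.Agent.P353.AN.Fin.Thr
import Vale.Agent.P353.AN.Fin.Univ

/-! # P353, all `N`: the final theorem from the weak profile systems (helper973) -/

open MeasureTheory Filter Topology
open scoped ContDiff

namespace Vale.Agent.P353.Z.AFinal

open Vale.Agent.P353.Z.Fin1

/-- the final theorem, given the weak profile systems -/
theorem one_of (hsys : ∀ N, 2 ≤ N → SysStmt N) {N d : ℕ} {F : Type*} [NormedAddCommGroup F] [InnerProductSpace ℂ F]
    (M : BFSS.Model N d F) (hN : 2 ≤ N) :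
    ∃ Φ : BFSS.Conf d → F, M.IsZeroEnergyState Φ ∧ ¬ (∀ᵐ x ∂BFSS.leb d, Φ x = 0) ∧
      ∀ Ψ, M.IsZeroEnergyState Ψ → ∃ c : ℂ, ∀ᵐ x ∂BFSS.leb d, Ψ x = c • Φ x :=
  threshU univS hsys M hN

end Vale.Agent.P353.Z.AFinal
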