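import Vale.Agent.P353.AN.Fin.All
import Vale.Agent.P353.AN.EX.All

/-! # P353, all `N`: the threshold bound state theorem, with existence of the data -/

open MeasureTheory Filter Topology
open scoped ContDiff

namespace Vale.Agent.P353.Z.AFinal

/-- the data exist and `dim ker H_N = 1`, for every `N ≥ 2` -/
theorem oneX {N : ℕ} (hN : 2 ≤ N) :
    (∃ (F : Type) (_ : NormedAddCommGroup F) (_ : InnerProductSpace ℂ F), Nonempty (BFSS.Model N (N ^ 2 - 1) F)) ∧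
    ∀ (d : ℕ) (F : Type*) [NormedAddCommGroup F] [InnerProductSpace ℂ F] (M : BFSS.Model N d F),
      ∃ Φ : BFSS.Conf d → F, M.IsZeroEnergyState Φ ∧ ¬ (∀ᵐ x ∂BFSS.leb d, Φ x = 0) ∧
        ∀ Ψ, M.IsZeroEnergyState Ψ → ∃ c : ℂ, ∀ᵐ x ∂BFSS.leb d, Ψ x = c • Φ x :=
  ⟨AEX.ex N (by omega), fun _ _ _ _ M => one M hN⟩

end Vale.Agent.P353.Z.AFinal
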