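import Vale.Agent.P353.AN.Fin.Stmt
import Vale.Agent.P353.Z.U.MBridge

/-! # P353, all `N`: zero modes are zero-energy states (BR2) -/

open MeasureTheory Filter Topology
open scoped ContDiff

namespace Vale.Agent.P353.Z.Fin1

variable {N d : ℕ} {F : Type*} [NormedAddCommGroup F] [InnerProductSpace ℂ F]

/-- the form is controlled by the `L²` norms of the supercharges -/
theorem bk_form_norm {M : BFSS.Model N d F} {S : Setup d F} (hR : U.Rep M S)
    {φ u : Cfg d → F} (hφ : Setup.Tst φ) (hu : Setup.Tst u) :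
    ‖M.form φ u‖ ≤ 1 / 16 * ∑ α, Real.sqrt (∫ x, ‖S.Q α φ x‖ ^ 2) *
      Real.sqrt (∫ x, ‖S.Q α u x‖ ^ 2) := by
  rw [U.mb_form_eq hR hφ hu, norm_mul]
  have h1 : ‖(1 / 16 : ℂ)‖ = 1 / 16 := by norm_num
  rw [h1]
  refine mul_le_mul_of_nonneg_left ?_ (by norm_num)
  refine (norm_sum_le _ _).trans (Finset.sum_le_sum fun α _ => ?_)
  exact cs_inner (hφ.Q S α).memLp (hu.Q S α).memLp

/-- the `L²` norm of the supercharge of a difference -/
theorem bk_Q_sub (S : Setup d F) {u v : Cfg d → F} (hu : Setup.Tst u) (hv : Setup.Tst v)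
    (α : Fin 16) : ∫ x, ‖S.Q α (fun y => u y - v y) x‖ ^ 2 ≤
      2 * (∫ x, ‖S.Q α u x‖ ^ 2) + 2 * ∫ x, ‖S.Q α v x‖ ^ 2 := by
  have i1 := (hu.Q S α).norm_sq_int
  have i2 := (hv.Q S α).norm_sq_int
  rw [← integral_const_mul, ← integral_const_mul,
    ← integral_add (i1.const_mul 2) (i2.const_mul 2)]
  refine integral_mono ((hu.sub hv).Q S α).norm_sq_int
    ((i1.const_mul 2).add (i2.const_mul 2)) fun x => ?_
  simp only
  rw [U.mb_Q_sub S (hu.diff x) (hv.diff x)]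
  have h1 : ‖S.Q α u x - S.Q α v x‖ ≤ ‖S.Q α u x‖ + ‖S.Q α v x‖ := norm_sub_le _ _
  have h2 : ‖S.Q α u x - S.Q α v x‖ ^ 2 ≤ (‖S.Q α u x‖ + ‖S.Q α v x‖) ^ 2 :=
    pow_le_pow_left₀ (norm_nonneg _) h1 2
  nlinarith [sq_nonneg (‖S.Q α u x‖ - ‖S.Q α v x‖)]

/-- **BR2** zero modes are zero-energy states -/
theorem back_of (M : BFSS.Model N d F) : BackOfStmt M := by
  intro hcore hfd hN S hR Ψ hZ
  obtain ⟨u, hT, hG, hL, hQ⟩ := hZ
  have hc : ∀ n, M.IsCore (u n) := fun n => hcore hfd hN S hR (u n) (hT n) fun C x => hG n C x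
  refine ⟨Lp.memLp Ψ, u, hc, hL, ?_, ?_⟩
  · rw [tendsto_zero_iff_norm_tendsto_zero]
    have h1 : ∀ α, Tendsto (fun p : ℕ × ℕ => 2 * (∫ x, ‖S.Q α (u p.1) x‖ ^ 2) +
        2 * ∫ x, ‖S.Q α (u p.2) x‖ ^ 2) atTop (𝓝 0) := by
      intro α
      rw [← prod_atTop_atTop_eq]
      have a1 := ((hQ α).comp (tendsto_fst (f := atTop) (g := (atTop : Filter ℕ)))).const_mul 2
      have a2 := ((hQ α).comp (tendsto_snd (f := (atTop : Filter ℕ)) (g := atTop))).const_mul 2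
      simpa [Function.comp_def] using a1.add a2
    have h2 : Tendsto (fun p : ℕ × ℕ => 1 / 16 * ∑ α, (2 * (∫ x, ‖S.Q α (u p.1) x‖ ^ 2) +
        2 * ∫ x, ‖S.Q α (u p.2) x‖ ^ 2)) atTop (𝓝 0) := by
      have := (tendsto_finsetSum (Finset.univ : Finset (Fin 16)) fun α _ => h1 α).const_mul
        (1 / 16 : ℝ)
      simpa using this
    refine squeeze_zero (fun p => norm_nonneg _) (fun p => ?_) h2
    have hw : Setup.Tst (fun x => u p.1 x - u p.2 x) := (hT p.1).sub (hT p.2)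
    refine (bk_form_norm hR hw hw).trans ?_
    refine mul_le_mul_of_nonneg_left (Finset.sum_le_sum fun α _ => ?_) (by norm_num)
    rw [Real.mul_self_sqrt (integral_nonneg fun x => by positivity)]
    exact bk_Q_sub S (hT p.1) (hT p.2) α
  · intro φ hφ
    have hφT : Setup.Tst φ := ⟨hφ.1, hφ.2.1⟩
    rw [tendsto_zero_iff_norm_tendsto_zero]
    have h1 : ∀ α, Tendsto (fun n => Real.sqrt (∫ x, ‖S.Q α φ x‖ ^ 2) *
        Real.sqrt (∫ x, ‖S.Q α (u n) x‖ ^ 2)) atTop (𝓝 0) := by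
      intro α
      have a1 := (Real.continuous_sqrt.tendsto 0).comp (hQ α)
      rw [Real.sqrt_zero] at a1
      simpa [Function.comp_def] using a1.const_mul (Real.sqrt (∫ x, ‖S.Q α φ x‖ ^ 2))
    have h2 : Tendsto (fun n => 1 / 16 * ∑ α, Real.sqrt (∫ x, ‖S.Q α φ x‖ ^ 2) *
        Real.sqrt (∫ x, ‖S.Q α (u n) x‖ ^ 2)) atTop (𝓝 0) := by
      have := (tendsto_finsetSum (Finset.univ : Finset (Fin 16)) fun α _ => h1 α).const_mul
        (1 / 16 : ℝ)
      simpa using this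
    exact squeeze_zero (fun n => norm_nonneg _) (fun n => bk_form_norm hR hφT (hT n)) h2

end Vale.Agent.P353.Z.Fin1
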