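import Vale.Agent.P353.AN.Fin.Stmt
import Vale.Agent.P353.AN.Fin.CoreA

/-! # P353, all `N`: **BR1**, the converse Gauss law -/

open MeasureTheory Filter Topology
open scoped ContDiff

namespace Vale.Agent.P353.Z.Fin1

variable {N d : ℕ} {F : Type*} [NormedAddCommGroup F] [InnerProductSpace ℂ F]

/-- **BR1** -/
theorem core_of (M : BFSS.Model N d F) : CoreStmt M := by
  intro hF _ S hrep u hu hG
  exact ⟨hu.1, hu.2, fun V x => Vale.Agent.P353.AN.G.core_eqv M S hrep u hu.1 hG V x⟩

end Vale.Agent.P353.Z.Fin1
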