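import Vale.Agent.P353.BFSS

/-! # P353, all `N`: change of the universe of the fermion space (statement) -/

open MeasureTheory Filter Topology
open scoped ContDiff

namespace Vale.Agent.P353.Z.Fin1

universe u

/-- there is exactly one zero-energy state up to a factor -/
def Uniq {N d : ℕ} {F : Type u} [NormedAddCommGroup F] [InnerProductSpace ℂ F] (M : BFSS.Model N d F) : Prop :=
  ∃ Φ : BFSS.Conf d → F, M.IsZeroEnergyState Φ ∧ ¬ (∀ᵐ x ∂BFSS.leb d, Φ x = 0) ∧
    ∀ Ψ, M.IsZeroEnergyState Ψ → ∃ c : ℂ, ∀ᵐ x ∂BFSS.leb d, Ψ x = c • Φ x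

/-- **UNIV** it suffices to treat fermion spaces in `Type`. PROOF. `F` is finite dimensional (`finiteDimensional_of_model M`, `Z/U`), `e : F ≃ₗᵢ[ℂ] EuclideanSpace ℂ (Fin m)`
(`stdOrthonormalBasis`). Model `M'` on `EuclideanSpace ℂ (Fin m)`: `θ' = e θ e⁻¹`, `S' = e S e⁻¹`, the other data unchanged. `M'.Q α (e ∘ u) = e ∘ M.Q α u` (`lineDeriv` of a composition with
a continuous linear equivalence), `M'.form (e ∘ φ) (e ∘ u) = M.form φ u`, `IsCore`, `MemLp`, `L²` convergence transported both ways: `M.IsZeroEnergyState Ψ ↔ M'.IsZeroEnergyState (e ∘ Ψ)`. -/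
def UnivStmt : Prop :=
  (∀ (N d : ℕ) (F : Type) [NormedAddCommGroup F] [InnerProductSpace ℂ F] (M : BFSS.Model N d F), 2 ≤ N → Uniq M) →
  ∀ (N d : ℕ) (F : Type u) [NormedAddCommGroup F] [InnerProductSpace ℂ F] (M : BFSS.Model N d F), 2 ≤ N → Uniq M

end Vale.Agent.P353.Z.Fin1
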