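import Vale.Agent.P353.AN.Fin.Stmt
import Vale.Agent.P353.Z.U.MBridge
import Vale.Agent.P353.Z.U.MSet
import Vale.Agent.P353.Z.U.MGauss

/-! # P353, all `N`: the theorem for the model as posed (BR3) -/

open MeasureTheory Filter Topology
open scoped ContDiff

namespace Vale.Agent.P353.Z.Fin1

variable {N d : ℕ} {F : Type*} [NormedAddCommGroup F] [InnerProductSpace ℂ F]

/-- **BR3** the theorem for the model as posed -/
theorem top_of (M : BFSS.Model N d F) : TopOfStmt M := by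
  intro hN hOne hBack
  have : FiniteDimensional ℂ F := U.finiteDimensional_of_model M
  obtain ⟨S, hS⟩ := U.setS M
  obtain ⟨Ψ₀, hZ, hne, huniq⟩ := hOne S hS
  refine ⟨fun x => Ψ₀ x, hBack S hS Ψ₀ hZ, ?_, ?_⟩
  · intro h
    refine hne ?_
    rw [Lp.eq_zero_iff_ae_eq_zero]
    exact h
  · intro Ψ hΨ
    have hm : MemLp Ψ 2 (volume : Measure (Cfg d)) := hΨ.1
    obtain ⟨c, hc⟩ := huniq _ (U.bridge_of_gauss M (U.gaussLaw M) S hS Ψ hm hΨ)
    refine ⟨c, ?_⟩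
    have h1 : ∀ᵐ x ∂(volume : Measure (Cfg d)), (hm.toLp Ψ : Cfg d → F) x = Ψ x := hm.coeFn_toLp
    have h2 : ∀ᵐ x ∂(volume : Measure (Cfg d)), (c • Ψ₀ : Lp F 2 _) x = c • Ψ₀ x :=
      Lp.coeFn_smul c Ψ₀
    rw [BFSS.leb]
    filter_upwards [h1, h2] with x hx1 hx2
    rw [← hx1, hc, hx2]

end Vale.Agent.P353.Z.Fin1
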