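import Vale.Agent.P353.AN.Fin.Main
import Vale.Agent.P353.AN.Fin.Top
import Vale.Agent.P353.AN.Fin.Back
import Vale.Agent.P353.AN.Fin.Core
import Vale.Agent.P353.AN.Fin.StmtU

/-! # P353, all `N`: the theorem from the weak profile systems (helper973) -/

open MeasureTheory Filter Topology
open scoped ContDiff

namespace Vale.Agent.P353.Z.Fin1

universe u

/-- the theorem for the model as posed, fermion spaces in `Type` -/
theorem thresh0 (hsys : ∀ N, 2 ≤ N → SysStmt N)
    (N d : ℕ) (F : Type) [NormedAddCommGroup F] [InnerProductSpace ℂ F] (M : BFSS.Model N d F) (hN : 2 ≤ N) : Uniq M :=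
  thresh hsys (fun _ _ _ _ _ M => top_of M)
    (fun _ _ _ _ _ M hN => back_of M (core_of M) (U.finiteDimensional_of_model M) hN) hN M

/-- the theorem for the model as posed, every universe -/
theorem threshU (hU : UnivStmt.{u}) (hsys : ∀ N, 2 ≤ N → SysStmt N)
    {N d : ℕ} {F : Type u} [NormedAddCommGroup F] [InnerProductSpace ℂ F] (M : BFSS.Model N d F) (hN : 2 ≤ N) :
    ∃ Φ : BFSS.Conf d → F, M.IsZeroEnergyState Φ ∧ ¬ (∀ᵐ x ∂BFSS.leb d, Φ x = 0) ∧
      ∀ Ψ, M.IsZeroEnergyState Ψ → ∃ c : ℂ, ∀ᵐ x ∂BFSS.leb d, Ψ x = c • Φ x :=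
  hU (thresh0 hsys) N d F M hN

end Vale.Agent.P353.Z.Fin1
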