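import Vale.Agent.P353.AN.Fin.Main
import Vale.Agent.P353.AN.H.CirC

/-! # P353, all `N`: two irreducible Clifford modules are equivalent; transfer of models (helper973) -/

open MeasureTheory Filter Topology
open scoped ContDiff

namespace Vale.Agent.P353.Z.Fin1

universe u v

variable {d : ℕ} {F₀ : Type u} [NormedAddCommGroup F₀] [InnerProductSpace ℂ F₀]
variable {E : Type v} [NormedAddCommGroup E] [InnerProductSpace ℂ E]

/-- parity operator of an irreducible module -/
lemma parity [FiniteDimensional ℂ E] (S : Setup d E) (hI : S.Irr) (hne : ∃ v : E, v ≠ 0) :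
    ∃ P : E →L[ℂ] E, P * P = 1 ∧ ∀ α A, S.th α A * P = -(P * S.th α A) := by
  have hc : CompleteSpace E := FiniteDimensional.complete ℂ E
  have h12 : (1 : Fin 9) ≠ 2 := by decide
  obtain ⟨c, hc⟩ := AH.Cir.st_scalar S hI hne h12
  have hc0 : c ≠ 0 := by
    rintro rfl
    obtain ⟨v, hv⟩ := hne
    have h1 := S.st_norm 1 2 (4 * Real.pi) v
    rw [hc, zero_smul, norm_zero] at h1
    exact hv (norm_eq_zero.mp h1.symm)
  obtain ⟨l, hl⟩ := IsAlgClosed.exists_pow_nat_eq c⁻¹ (n := 2) two_pos
  refine ⟨l • S.st 1 2 (2 * Real.pi), ?_, fun α A => ?_⟩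
  · have h1 : S.st 1 2 (2 * Real.pi) * S.st 1 2 (2 * Real.pi) = c • (1 : E →L[ℂ] E) := by
      rw [← S.st_add]
      have e : 2 * Real.pi + 2 * Real.pi = 4 * Real.pi := by ring
      rw [e]
      ext v
      rw [hc]
      rfl
    rw [smul_mul_smul_comm, h1, smul_smul, ← sq, hl, inv_mul_cancel₀ hc0, one_smul]
  · have h1 := S.vec_mul_st h12 1 A α (2 * Real.pi)
    have h2 : S.gt 1 2 (2 * Real.pi) = -1 := by
      have e : 2 * Real.pi / 2 = Real.pi := by ring
      rw [Setup.gt, e, Real.cos_pi, Real.sin_pi]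
      simp
    rw [h2, mul_neg, mul_one, S.vec_neg, S.vec_one, mul_neg] at h1
    rw [mul_smul_comm, smul_mul_assoc, h1, smul_neg]

/-- existence of an intertwiner -/
lemma exists_itw (θ₁ : Fin 16 → Fin d → F₀ →L[ℂ] F₀)
    (h₁ : ∀ α A β B v, θ₁ α A (θ₁ β B v) + θ₁ β B (θ₁ α A v) = if α = β ∧ A = B then v else 0)
    (hne₁ : ∃ v : F₀, v ≠ 0) (S : Setup d E) (hne : ∃ v : E, v ≠ 0) {P : E →L[ℂ] E} (hP : P * P = 1)
    (hPth : ∀ α A, S.th α A * P = -(P * S.th α A)) :
    ∃ V : F₀ →L[ℂ] E, V ≠ 0 ∧ ∀ α A v, S.th α A (V v) = V (θ₁ α A v) := by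
  classical
  have hP' : ∀ w, P (P w) = w := fun w => by
    have := congrArg (fun T : E →L[ℂ] E => T w) hP
    exact this
  have hPth' : ∀ α A w, S.th α A (P w) = -P (S.th α A w) := fun α A w => by
    have := congrArg (fun T : E →L[ℂ] E => T w) (hPth α A)
    exact this
  have hS : ∀ α A β B w, S.th α A (S.th β B w) + S.th β B (S.th α A w) = if α = β ∧ A = B then w else 0 := by
    intro α A β B w
    have h := congrArg (fun T : E →L[ℂ] E => T w) (S.th_anti α A β B)
    have e : (if α = β ∧ A = B then (1 : E →L[ℂ] E) else 0) w = if α = β ∧ A = B then w else 0 := by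
      split_ifs <;> rfl
    rw [← e]
    exact h
  -- vacuum for the operators `L ↦ θ²L + iP L θ¹`
  set b : Fin 16 × Fin d → (F₀ →L[ℂ] E) → F₀ → E := fun p L v =>
    S.th p.1 p.2 (L v) + Complex.I • P (L (θ₁ p.1 p.2 v)) with hb
  have key : ∀ s : Finset (Fin 16 × Fin d), ∃ L : F₀ →L[ℂ] E, L ≠ 0 ∧ ∀ p ∈ s, ∀ v, b p L v = 0 := by
    intro s
    induction s using Finset.induction_on with
    | empty =>
      obtain ⟨v₁, hv₁⟩ := hne₁
      obtain ⟨w, hw⟩ := hne
      refine ⟨(innerSL ℂ v₁).smulRight w, ?_, fun p hp => absurd hp (Finset.notMem_empty p)⟩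
      intro h
      have h1 := congrArg (fun T : F₀ →L[ℂ] E => T v₁) h
      simp only [ContinuousLinearMap.smulRight_apply, innerSL_apply_apply, _root_.zero_apply] at h1
      rcases smul_eq_zero.mp h1 with h2 | h2
      · exact hv₁ (inner_self_eq_zero.mp h2)
      · exact hw h2
    | insert p s hp ih =>
      obtain ⟨L, hL, hLs⟩ := ih
      by_cases h : ∀ v, b p L v = 0
      · refine ⟨L, hL, fun q hq => ?_⟩
        rcases Finset.mem_insert.mp hq with rfl | hq
        · exact h
        · exact hLs q hq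
      · set L' : F₀ →L[ℂ] E := (S.th p.1 p.2).comp L + Complex.I • P.comp (L.comp (θ₁ p.1 p.2)) with hL'
        have hL'b : ∀ v, L' v = b p L v := fun v => rfl
        have hbb : ∀ q v, b q L' v + (S.th p.1 p.2 (b q L v) + Complex.I • P (b q L (θ₁ p.1 p.2 v))) = 0 := by
          intro q v
          simp only [hb, hL'b, map_add, map_smul, hPth', smul_add, smul_neg, hP', smul_smul, Complex.I_mul_I]
          have e1 := hS q.1 q.2 p.1 p.2 (L v)
          have e2 := congrArg L (h₁ p.1 p.2 q.1 q.2 v)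
          rw [map_add] at e2
          have e3 : (if p.1 = q.1 ∧ p.2 = q.2 then v else 0 : F₀) = if q.1 = p.1 ∧ q.2 = p.2 then v else 0 := by
            simp only [eq_comm]
          rw [e3] at e2
          have e4 : L (if q.1 = p.1 ∧ q.2 = p.2 then v else 0) = if q.1 = p.1 ∧ q.2 = p.2 then L v else 0 := by
            split_ifs
            · rfl
            · exact map_zero L
          rw [e4] at e2
          have e5 : S.th q.1 q.2 (S.th p.1 p.2 (L v)) + S.th p.1 p.2 (S.th q.1 q.2 (L v)) =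
              L (θ₁ p.1 p.2 (θ₁ q.1 q.2 v)) + L (θ₁ q.1 q.2 (θ₁ p.1 p.2 v)) := by
            rw [e1, e2]
          have e6 := eq_sub_of_add_eq e5
          rw [e6]
          module
        refine ⟨L', ?_, fun q hq v => ?_⟩
        · intro h0
          apply h
          intro v
          rw [← hL'b, h0]
          rfl
        · have h1 := hbb q v
          rcases Finset.mem_insert.mp hq with rfl | hq
          · -- `b² = 0`
            have h2 : S.th q.1 q.2 (b q L v) + Complex.I • P (b q L (θ₁ q.1 q.2 v)) = b q L' v := rfl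
            rw [h2] at h1
            have h3 : (2 : ℂ) • b q L' v = 0 := by rw [two_smul]; exact h1
            exact (smul_eq_zero.mp h3).resolve_left two_ne_zero
          · rw [hLs q hq, hLs q hq, map_zero, map_zero, smul_zero, add_zero, add_zero] at h1
            exact h1
  obtain ⟨L, hL, hLb⟩ := key Finset.univ
  have hLb' : ∀ α A v, S.th α A (L v) = -(Complex.I • P (L (θ₁ α A v))) := fun α A v =>
    eq_neg_of_add_eq_zero_left (hLb (α, A) (Finset.mem_univ _) v)
  refine ⟨L - Complex.I • P.comp L, ?_, fun α A v => ?_⟩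
  · intro h
    have h1 : ∀ v, L v = Complex.I • P (L v) := fun v => by
      have := congrArg (fun T : F₀ →L[ℂ] E => T v) h
      exact sub_eq_zero.mp this
    apply hL
    ext v
    have h2 := h1 v
    have h3 : P (L v) = Complex.I • L v := by
      have := congrArg P h2
      rw [map_smul, hP'] at this
      exact this
    rw [h3, smul_smul, Complex.I_mul_I] at h2
    have h4 : (2 : ℂ) • L v = 0 := by
      rw [two_smul]
      nth_rewrite 1 [h2]
      module
    exact (smul_eq_zero.mp h4).resolve_left two_ne_zero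
  · change S.th α A (L v - Complex.I • P (L v)) = L (θ₁ α A v) - Complex.I • P (L (θ₁ α A v))
    rw [map_sub, map_smul, hPth', hLb', map_neg, map_smul, hP']
    rw [neg_neg, smul_smul, Complex.I_mul_I]
    module

/-- two irreducible modules are unitarily equivalent -/
theorem exists_unitary [FiniteDimensional ℂ F₀] [FiniteDimensional ℂ E] (θ₁ : Fin 16 → Fin d → F₀ →L[ℂ] F₀)
    (h₁ : ∀ α A β B v, θ₁ α A (θ₁ β B v) + θ₁ β B (θ₁ α A v) = if α = β ∧ A = B then v else 0)
    (hsa : ∀ α A v w, inner ℂ (θ₁ α A v) w = inner ℂ v (θ₁ α A w))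
    (hirr : ∀ W : Submodule ℂ F₀, (∀ α A, ∀ v ∈ W, θ₁ α A v ∈ W) → W = ⊥ ∨ W = ⊤)
    (hne₁ : ∃ v : F₀, v ≠ 0) (S : Setup d E) (hI : S.Irr) (hne : ∃ v : E, v ≠ 0) :
    ∃ V : F₀ ≃ₗᵢ[ℂ] E, ∀ α A v, S.th α A (V v) = V (θ₁ α A v) := by
  have hc₁ : CompleteSpace F₀ := FiniteDimensional.complete ℂ F₀
  have hc : CompleteSpace E := FiniteDimensional.complete ℂ E
  obtain ⟨P, hP, hPth⟩ := parity S hI hne
  obtain ⟨V, hV, hth⟩ := exists_itw θ₁ h₁ hne₁ S hne hP hPth
  -- surjective
  have hsurj : LinearMap.range (V : F₀ →ₗ[ℂ] E) = ⊤ := by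
    rcases hI (LinearMap.range (V : F₀ →ₗ[ℂ] E)) (by
      rintro α A w ⟨v, rfl⟩
      exact ⟨θ₁ α A v, (hth α A v).symm⟩) with h | h
    · exfalso
      apply hV
      ext v
      have : V v ∈ LinearMap.range (V : F₀ →ₗ[ℂ] E) := ⟨v, rfl⟩
      rw [h] at this
      exact (Submodule.mem_bot ℂ).mp this
    · exact h
  -- `V†V` is a scalar
  set T : F₀ →L[ℂ] F₀ := (ContinuousLinearMap.adjoint V).comp V with hT
  have hTin : ∀ v w, inner ℂ (T v) w = inner ℂ (V v) (V w) := fun v w => by
    change inner ℂ (ContinuousLinearMap.adjoint V (V v)) w = _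
    rw [ContinuousLinearMap.adjoint_inner_left]
  have hTth : ∀ α A v, T (θ₁ α A v) = θ₁ α A (T v) := by
    intro α A v
    refine ext_inner_right ℂ fun w => ?_
    rw [hTin, hsa, hTin, ← hth, ← hth, S.th_sa]
  have hnt : Nontrivial F₀ := by
    obtain ⟨v, hv⟩ := hne₁
    exact ⟨⟨v, 0, hv⟩⟩
  obtain ⟨μ, hμ⟩ := Module.End.exists_eigenvalue (T : F₀ →ₗ[ℂ] F₀)
  have hTs : ∀ v, T v = μ • v := by
    intro v
    rcases hirr (Module.End.eigenspace (T : F₀ →ₗ[ℂ] F₀) μ) (fun α A v hv => by
      rw [Module.End.mem_eigenspace_iff] at hv ⊢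
      change T (θ₁ α A v) = μ • θ₁ α A v
      have hv' : T v = μ • v := hv
      rw [hTth, hv', map_smul]) with h1 | h1
    · exact absurd h1 hμ
    · have hv : v ∈ Module.End.eigenspace (T : F₀ →ₗ[ℂ] F₀) μ := by
        rw [h1]
        exact Submodule.mem_top
      exact Module.End.mem_eigenspace_iff.mp hv
  have hnorm : ∀ v, ‖V v‖ ^ 2 = μ.re * ‖v‖ ^ 2 := by
    intro v
    have h1 := hTin v v
    rw [hTs, inner_smul_left, inner_self_eq_norm_sq_to_K, inner_self_eq_norm_sq_to_K] at h1
    have h2 := congrArg Complex.re h1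
    simp only [← RCLike.ofReal_pow] at h2
    have h3 : ((starRingEnd ℂ) μ * ((‖v‖ ^ 2 : ℝ) : ℂ)).re = μ.re * ‖v‖ ^ 2 := by
      rw [Complex.mul_re, Complex.conj_re, Complex.conj_im, Complex.ofReal_re, Complex.ofReal_im, mul_zero, sub_zero]
    have h4 : ((‖V v‖ ^ 2 : ℝ) : ℂ).re = ‖V v‖ ^ 2 := Complex.ofReal_re _
    exact h4.symm.trans (h2.symm.trans h3)
  have hμ0 : 0 < μ.re := by
    obtain ⟨v, hv⟩ : ∃ v, V v ≠ 0 := by
      by_contra h
      push Not at h
      exact hV (by ext v; exact h v)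
    have h1 := hnorm v
    have h2 : 0 < ‖V v‖ ^ 2 := by
      have := norm_pos_iff.mpr hv
      positivity
    rw [h1] at h2
    exact pos_of_mul_pos_left h2 (sq_nonneg _)
  set r : ℝ := (Real.sqrt μ.re)⁻¹ with hr
  have hr0 : 0 < r := inv_pos.mpr (Real.sqrt_pos.mpr hμ0)
  have hr2 : r ^ 2 * μ.re = 1 := by
    rw [hr, inv_pow, Real.sq_sqrt hμ0.le, inv_mul_cancel₀ hμ0.ne']
  let W : F₀ →ₗᵢ[ℂ] E :=
    { toLinearMap := ((r : ℂ) • V : F₀ →L[ℂ] E)
      norm_map' := fun v => by
        change ‖(r : ℂ) • V v‖ = ‖v‖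
        have h1 : ‖(r : ℂ) • V v‖ ^ 2 = ‖v‖ ^ 2 := by
          rw [norm_smul, mul_pow, hnorm, Complex.norm_real, Real.norm_eq_abs, sq_abs, ← mul_assoc, hr2, one_mul]
        exact (sq_eq_sq₀ (norm_nonneg _) (norm_nonneg _)).mp h1 }
  have hWs : Function.Surjective W := by
    intro w
    have hw : (r⁻¹ : ℂ) • w ∈ LinearMap.range (V : F₀ →ₗ[ℂ] E) := by
      rw [hsurj]
      exact Submodule.mem_top
    obtain ⟨v, hv⟩ := hw
    refine ⟨v, ?_⟩
    change (r : ℂ) • V v = w
    have hv' : V v = (r⁻¹ : ℂ) • w := hv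
    have hr' : (r : ℂ) ≠ 0 := Complex.ofReal_ne_zero.mpr hr0.ne'
    rw [hv', smul_smul, mul_inv_cancel₀ hr', one_smul]
  refine ⟨LinearIsometryEquiv.ofSurjective W hWs, fun α A v => ?_⟩
  change S.th α A ((r : ℂ) • V v) = (r : ℂ) • V (θ₁ α A v)
  rw [map_smul, hth]

/-- a model on any irreducible module of the same Lie algebra -/
theorem exists_model {n : ℕ} [FiniteDimensional ℂ E] (M₀ : BFSS.Model n d F₀) (S : Setup d E)
    (hf : S.f = M₀.f) (hκ : S.κ = 1) (hI : S.Irr) (hne : ∃ v : E, v ≠ 0) :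
    ∃ M : BFSS.Model n d E, U.Rep M S := by
  have hF₀ : FiniteDimensional ℂ F₀ := U.finiteDimensional_of_model M₀
  obtain ⟨V, hV⟩ := exists_unitary M₀.θ M₀.θ_anticomm M₀.θ_selfAdjoint M₀.θ_irreducible M₀.nontrivial S hI hne
  have hg : ∀ i α β, S.g i α β = (((S.g i α β).re : ℝ) : ℂ) := by
    intro i α β
    apply Complex.ext
    · simp
    · simp [S.g_real]
  have hmap : ∀ i, (Matrix.of fun α β => (S.g i α β).re).map (Complex.ofRealHom) = S.g i := by
    intro i
    ext α β
    simp only [Matrix.map_apply, Matrix.of_apply]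
    exact (hg i α β).symm
  have hinj : ∀ {A B : Matrix (Fin 16) (Fin 16) ℝ}, A.map (Complex.ofRealHom) = B.map (Complex.ofRealHom) → A = B := by
    intro A B h
    ext α β
    have := congrFun (congrFun h α) β
    simpa using this
  let M : BFSS.Model n d E :=
    { dim_eq := M₀.dim_eq
      T := M₀.T
      T_hermitian := M₀.T_hermitian
      T_traceless := M₀.T_traceless
      T_orthonormal := M₀.T_orthonormal
      f := M₀.f
      T_comm := M₀.T_comm
      γ := fun i => Matrix.of fun α β => (S.g i α β).re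
      γ_symm := fun i => by
        ext α β
        have h := congrFun (congrFun (S.g_symm i) α) β
        exact congrArg Complex.re h
      γ_anticomm := fun i j => by
        apply hinj
        rw [Matrix.map_add _ (fun a b => map_add _ a b), Matrix.map_mul, Matrix.map_mul, hmap, hmap, S.g_anti i j]
        split_ifs
        · ext α β
          simp only [Matrix.map_apply, Matrix.ofNat_apply]
          split_ifs <;> simp
        · ext α β
          simp
      θ := S.th
      θ_selfAdjoint := S.th_sa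
      θ_anticomm := fun α A β B v => by
        have h := congrArg (fun T : E →L[ℂ] E => T v) (S.th_anti α A β B)
        have e : (if α = β ∧ A = B then (1 : E →L[ℂ] E) else 0) v = if α = β ∧ A = B then v else 0 := by
          split_ifs <;> rfl
        rw [← e]
        exact h
      θ_irreducible := hI
      nontrivial := hne
      S := fun U => ((V.toContinuousLinearEquiv : F₀ →L[ℂ] E).comp (M₀.S U)).comp
        (V.symm.toContinuousLinearEquiv : E →L[ℂ] F₀)
      S_mul := fun U U' v => by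
        change V (M₀.S (U * U') (V.symm v)) = V (M₀.S U (V.symm (V (M₀.S U' (V.symm v)))))
        rw [V.symm_apply_apply, M₀.S_mul]
      S_isometry := fun U v => by
        change ‖V (M₀.S U (V.symm v))‖ = ‖v‖
        rw [V.norm_map, M₀.S_isometry, V.symm.norm_map]
      S_continuous := fun v => by
        exact V.continuous.comp (M₀.S_continuous (V.symm v))
      S_rotates := fun U α A v => by
        change V (M₀.S U (V.symm (S.th α A v))) = ∑ B, (BFSS.adCoeff M₀.T U B A : ℂ) • S.th α B (V (M₀.S U (V.symm v)))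
        have h1 : V.symm (S.th α A v) = M₀.θ α A (V.symm v) := by
          apply V.injective
          rw [V.apply_symm_apply, ← hV, V.apply_symm_apply]
        rw [h1, M₀.S_rotates, map_sum]
        refine Finset.sum_congr rfl fun B _ => ?_
        rw [map_smul, hV] }
  exact ⟨M, hκ, hf, hg, rfl⟩

/-- **transfer**: uniqueness for the models gives uniqueness for all irreducible modules -/
theorem oneA_of {n : ℕ} {F₀ : Type} [NormedAddCommGroup F₀] [InnerProductSpace ℂ F₀] (M₀ : BFSS.Model n d F₀)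
    (h : UniqN n) : OneA.{0} 1 M₀.f := by
  intro E _ _ hE S hf hκ hI hne
  obtain ⟨M, hM⟩ := exists_model M₀ S hf hκ hI hne
  exact h d E M S hM

end Vale.Agent.P353.Z.Fin1
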